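import Vale.Agent.P224.PO.C3.Rows
import Vale.Agent.P224.PO.C3.El
import Vale.Agent.P224.PO.C3.DF0
import Vale.Agent.P224.PO.C3.DF1
import Vale.Agent.P224.PO.IdX

/-!
The identity of the certificate in dimension 3 and the positivity of its left side.
-/

namespace Vale.Agent.P224.PO.C3

open Vale.Agent.P224.UE Vale.Agent.P224.POS Vale.Agent.P224.PO
open scoped RealInnerProductSpace

noncomputable section

/-- the blocks with the multiplier number 0 -/
def B1 : List BlkX := [⟨els0, 2199023255552, N0⟩, ⟨els1, 1099511627776, N1⟩, ⟨els2, 2199023255552, N2⟩, ⟨els3, 2199023255552, N3⟩]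

/-- the blocks with the multiplier number 1 -/
def Br : List BlkX := [⟨els4, 2199023255552, N4⟩, ⟨els5, 2199023255552, N5⟩, ⟨els6, 2199023255552, N6⟩, ⟨els7, 2199023255552, N7⟩]

/-- the blocks with the multiplier number 2 -/
def S1 : List BlkX := [⟨els8, 1048576, N8⟩, ⟨els9, 524288, N9⟩, ⟨els10, 67108864, N10⟩]

/-- the blocks with the multiplier number 3 -/
def Sr : List BlkX := [⟨els11, 524288, N11⟩, ⟨els12, 2097152, N12⟩, ⟨els13, 1073741824, N13⟩]

/-- the integers replacing the first four variables (not powers of two: the kernel hashes a numeral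
by its last 64 bits) -/
def Ms : List Nat := [
  Nat.add (Nat.pow 2 71) 723714778168982597,
  Nat.add (Nat.pow 2 978) 783142402908340377,
  Nat.add (Nat.pow 2 5159) 974476259802336823,
  Nat.add (Nat.pow 2 26064) 1061558796830403563]

set_option maxRecDepth 100000 in
/-- **The identity**, checked by the kernel. -/
theorem idM : chkX Ms (PE.sb sbH P) 8 tabH (mulX B1 Br S1 Sr) = true := by
  decide +kernel

lemma hB1 : GoodX B1 :=
  (goodX_cons psd0 (goodX_cons psd1 (goodX_cons psd2 (goodX_cons psd3 goodX_nil))))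

lemma hBr : GoodX Br :=
  (goodX_cons psd4 (goodX_cons psd5 (goodX_cons psd6 (goodX_cons psd7 goodX_nil))))

lemma hS1 : GoodX S1 :=
  (goodX_cons psd8 (goodX_cons psd9 (goodX_cons psd10 goodX_nil)))

lemma hSr : GoodX Sr :=
  (goodX_cons psd11 (goodX_cons psd12 (goodX_cons psd13 goodX_nil)))

/-- **Positivity** of the left side on pair data with a vector of length at most `5 / 6`. -/
theorem pos {E : Type*} [NormedAddCommGroup E] [InnerProductSpace ℝ E] {e x N y w : E}
    (he : ‖e‖ ^ 2 ≤ 25 / 36) (hx : ‖x‖ = 1) (hN : ‖N‖ = 1) (hy : ‖y‖ = 1) (hw : ‖w‖ = 1)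
    (hxN : ⟪x, N⟫ = 0) (hyw : ⟪y, w⟫ = 0) (hs : ⟪x, y⟫ < 1) :
    0 ≤ PE.ev (vh (dv x N y w e)) P :=
  nonneg_of_chkX 8 (by norm_num) idM rfl hB1 hBr hS1 hSr he hx hN hy hw hxN hyw hs

/-- **The pointwise inequality of the certificate.** -/
theorem hpos {E : Type*} [NormedAddCommGroup E] [InnerProductSpace ℝ E] (e x N y w : E)
    (he : ‖e‖ ^ 2 ≤ 25 / 36) (hx : ‖x‖ = 1) (hN : ‖N‖ = 1) (hy : ‖y‖ = 1) (hw : ‖w‖ = 1)
    (hxN : ⟪x, N⟫ = 0) (hyw : ⟪y, w⟫ = 0) (hs : ⟪x, y⟫ < 1) :
    0 ≤ Vale.Agent.P224.UE.W9 (2147483648 / 2147483648) (1302315448 / 2147483648) (-8872722280 / 2147483648) (22947414736 / 2147483648) (-18820136896 / 2147483648) (-8567956664 / 2147483648) (9051952560 / 2147483648) (1430705816 / 2147483648) (0 / 2147483648)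
        (dv x N y w e)
      + hsum 3 (rlH 2147483648 rows) (dv x N y w e) :=
  pos_of hs (pos he hx hN hy hw hxN hyw hs)

end

end Vale.Agent.P224.PO.C3
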